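import Vale.Agent.P237.Petty.Cor.Few.Orders19.Record
import Vale.Agent.P237.Petty.Cor.Few.Mask

/-!
# P237: certificates, part 1, of the orders from seventeen to twenty-four

The Bernstein test on bisections, evaluated by the kernel.
-/

namespace Vale.Agent.P237.Petty.Cor.Few

open Vale.Agent.P100.Bernstein

theorem one19_0 : certify false data19.eP
    [⟨0, 0, 1⟩, ⟨0, 1, 1⟩, ⟨20, 27, 1⟩, ⟨0, 1, 1⟩] (
    .leaf) = true := by
  refine certify_of_quick ?_
  decide +kernel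

theorem dom19_0 : certify false data19.eDom
    [⟨0, 0, 1⟩, ⟨0, 1, 1⟩, ⟨20, 27, 1⟩, ⟨0, 1, 1⟩] (
    .leaf) = true := by
  refine certify_of_quick ?_
  decide +kernel

theorem pos19_0 : certify false data19.eQ
    [⟨0, 0, 1⟩, ⟨0, 1, 1⟩, ⟨20, 27, 1⟩, ⟨0, 1, 1⟩] (
    .leaf) = true := by
  refine certify_of_quick ?_
  decide +kernel

theorem fast19_0 : certify false data19.eOne
    [⟨0, 1, 1⟩, ⟨0, 1, 1⟩, ⟨20, 27, 1⟩, ⟨0, 7, 8⟩] (
    .split 0 (.split 1 .leaf (.split 3 (.split 0 .leaf (.split 3 .leaf (.split 3 .leaf .leaf)))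
    (.split 0 (.split 0 (.split 0 (.split 0 (.split 0 (.split 0 .leaf .leaf) .leaf) .leaf) .leaf)
    .leaf) .leaf))) (.split 3 (.split 1 (.split 0 (.split 3 .leaf .leaf) (.split 3 (.split 1
    (.split 0 .leaf (.split 0 .leaf (.split 3 (.split 1 .leaf (.split 3 .leaf (.split 1 (.split 0
    .leaf .leaf) (.split 0 .leaf (.split 1 (.split 0 .leaf .leaf) .leaf))))) (.split 1 .leaf
    (.split 1 .leaf (.split 0 .leaf (.split 1 .leaf .leaf))))))) (.split 0 (.split 0 .leaf (.split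
    1 (.split 1 .leaf .leaf) .leaf)) (.split 1 (.split 0 (.split 3 .leaf (.split 2 (.split 1
    (.split 0 .leaf (.split 3 .leaf .leaf)) (.split 3 .leaf (.split 2 (.split 2 (.split 0 (.split
    1 .leaf .leaf) (.split 1 .leaf .leaf)) .leaf) .leaf))) .leaf)) (.split 3 (.split 0 .leaf
    (.split 0 .leaf .leaf)) (.split 1 (.split 0 (.split 1 .leaf .leaf) .leaf) (.split 0 .leaf
    .leaf)))) (.split 0 (.split 3 .leaf (.split 0 .leaf .leaf)) .leaf)))) (.split 3 (.split 1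
    (.split 0 .leaf .leaf) (.split 0 (.split 2 (.split 3 (.split 0 .leaf (.split 1 (.split 1 .leaf
    .leaf) .leaf)) .leaf) .leaf) (.split 1 (.split 2 (.split 0 (.split 1 .leaf .leaf) .leaf)
    .leaf) .leaf))) .leaf))) (.split 0 (.split 3 .leaf (.split 1 (.split 0 .leaf .leaf) (.split 0
    (.split 3 .leaf (.split 0 .leaf .leaf)) .leaf))) (.split 1 (.split 3 (.split 0 .leaf .leaf)
    (.split 0 .leaf .leaf)) .leaf))) .leaf)) = true := by
  refine certify_of_quick ?_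
  decide +kernel

theorem slowCert19_0 : certify false data19.eOne
    [⟨1, 2, 1⟩, ⟨0, 1, 1⟩, ⟨20, 27, 1⟩, ⟨0, 7, 8⟩] (
    .split 0 (.split 0 (.split 3 (.split 1 (.split 0 (.split 3 (.split 1 (.split 0 (.split 1
    (.split 3 .leaf .leaf) (.split 3 (.split 1 (.split 0 (.split 1 .leaf (.split 1 .leaf .leaf))
    .leaf) (.split 0 (.split 3 .leaf (.split 0 .leaf .leaf)) .leaf)) (.split 1 .leaf .leaf)))
    (.split 1 .leaf .leaf)) (.split 0 (.split 3 (.split 0 .leaf .leaf) .leaf) .leaf)) .leaf)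
    .leaf) (.split 3 (.split 3 (.split 3 (.split 3 (.split 3 (.split 0 (.split 0 .leaf .leaf)
    (.split 0 .leaf .leaf)) .leaf) .leaf) .leaf) .leaf) .leaf)) .leaf) .leaf) .leaf) = true := by
  refine certify_of_quick ?_
  decide +kernel

theorem far19_0 : certify false data19.eOne
    [⟨1, 32, 16⟩, ⟨0, 1, 1⟩, ⟨20, 27, 1⟩, ⟨7, 8, 8⟩] (
    .leaf) = true := by
  refine certify_of_quick ?_
  decide +kernel

theorem corner19_0 : certify false data19.eCorner
    [⟨0, 0, 1⟩, ⟨0, 1, 1⟩, ⟨20, 27, 1⟩, ⟨7, 8, 8⟩] (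
    .leaf) = true := by
  refine certify_of_quick ?_
  decide +kernel

theorem room19_0 : certify false data19.eEnd
    [⟨0, 0, 1⟩, ⟨0, 1, 1⟩, ⟨20, 27, 1⟩, ⟨0, 1, 1⟩] (
    .split 3 (.split 1 (.split 3 .leaf .leaf) (.split 1 .leaf (.split 1 .leaf .leaf))) .leaf) = true := by
  refine certify_of_quick ?_
  decide +kernel

theorem mean19_0 : certify false data19.eMean
    [⟨0, 0, 1⟩, ⟨0, 0, 1⟩, ⟨20, 27, 1⟩] (
    .leaf) = true := by
  refine certify_of_quick ?_
  decide +kernel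

end Vale.Agent.P237.Petty.Cor.Few
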