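import Vale.Agent.P237.Petty.Cor.Few.Data

/-!
# P237: the field for the orders from seventeen to twenty-four
-/

namespace Vale.Agent.P237.Petty.Cor.Few

/-- The field on `20 ≤ M ≤ 27`. -/
def data19 : Data where
  lo := 20
  hi := 27
  nu0 := (137, 100)
  nu1 := (243, 5000)
  b0 := (19, 1000)
  b1 := (63, 10000)
  bm := (49, 50)
  k0 := (683, 500)
  k1 := (-337, 10000)
  g := (267, 200)
  d1 := (233, 500)
  w0 := (24, 5)
  v0 := (2, 1)
  lv := (1386, 1000)
  lam := (8, 1)
  ell := (1, 1)
  zc := (2, 47)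
  a i := [(16711, 1000000), (-8284, 10000), (11668, 1000), (295, 1000), (25592, 1000), (2, 1),
    (-12123, 1000000), (-4108, 10000), (16574, 1000)].getD i (0, 1)

end Vale.Agent.P237.Petty.Cor.Few
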